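import Mathlib

/-!
# P097, Birkhoff graph theorem: area preserving twist maps in generating coordinates
-/

namespace Vale.Agent.P097G

open Set MeasureTheory

/-- the open strip `0 < v - u < a` of the plane `z = u + v i` -/
def St (a : ℝ) : Set ℂ := {z | 0 < z.im - z.re ∧ z.im - z.re < a}

/-- `T (u, v) = (v, g (u, v))` with `g` decreasing in `u`, preserving the measure `μ` -/
structure Twist (a : ℝ) (T : ℂ → ℂ) (μ : Measure ℂ) : Prop where
  bij : BijOn T (St a) (St a)
  cont : ContinuousOn T (St a)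
  re : ∀ z ∈ St a, (T z).re = z.im
  anti : ∀ z ∈ St a, ∀ w ∈ St a, z.im = w.im → z.re < w.re → (T w).im < (T z).im
  per : ∀ z ∈ St a, T (z + (a + a * Complex.I)) = T z + (a + a * Complex.I)
  inv : ∀ X ⊆ St a, MeasurableSet X → μ (T '' X) = μ X
  tr : ∀ X ⊆ St a, MeasurableSet X → μ ((fun z => z + (a + a * Complex.I)) '' X) = μ X
  fin : ∀ K ⊆ St a, IsCompact K → μ K ≠ ⊤
  pos : ∀ U ⊆ St a, IsOpen U → U.Nonempty → μ U ≠ 0

end Vale.Agent.P097G
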