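import Vale.Agent.P097G.J

/-!
# P097, Birkhoff graph theorem: lifted angles under which a point sees a periodic curve
-/

namespace Vale.Agent.P097G

open Set Topology Filter Metric Real Vale.Agent.P155.Tree.UQ

/-- a simple curve invariant under the translation by `a + a i` -/
structure Crv (γ : ℝ → ℂ) (a : ℝ) : Prop where
  pos : 0 < a
  cont : Continuous γ
  inj : Function.Injective γ
  per : ∀ t, γ (t + 1) = γ t + (a + a * Complex.I)

theorem bdd_of_per {f : ℝ → ℝ} (hf : Continuous f) {a : ℝ} (hp : ∀ t, f (t + 1) = f t + a) :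
    ∃ C, ∀ t, |f t - a * t| ≤ C := by
  have h1 : Function.Periodic (fun t => f t - a * t) 1 := by
    intro t
    simp only [hp]
    ring
  have h2 := h1.isBounded_of_continuous one_ne_zero (by fun_prop)
  obtain ⟨C, hC⟩ := h2.exists_norm_le
  exact ⟨C, fun t => hC _ (mem_range_self t)⟩

theorem top_of_bdd {f : ℝ → ℝ} {a C : ℝ} (ha : 0 < a) (h : ∀ t, |f t - a * t| ≤ C) :
    Tendsto f atTop atTop ∧ Tendsto f atBot atBot := by
  constructor
  · refine tendsto_atTop_mono (f := fun t => a * t + -C) (fun t => ?_) ?_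
    · have := abs_le.1 (h t)
      linarith
    · exact tendsto_atTop_add_const_right _ _ (tendsto_id.const_mul_atTop ha)
  · refine tendsto_atBot_mono (f := fun t => a * t + C) (fun t => ?_) ?_
    · have := abs_le.1 (h t)
      linarith
    · exact tendsto_atBot_add_const_right _ _ (tendsto_id.const_mul_atBot ha)

theorem top_of_per {f : ℝ → ℝ} (hf : Continuous f) {a : ℝ} (ha : 0 < a)
    (hp : ∀ t, f (t + 1) = f t + a) : Tendsto f atTop atTop ∧ Tendsto f atBot atBot := by
  obtain ⟨C, hC⟩ := bdd_of_per hf hp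
  exact top_of_bdd ha hC

namespace Crv

variable {γ : ℝ → ℂ} {a : ℝ}

theorem re_top (H : Crv γ a) :
    Tendsto (fun t => (γ t).re) atTop atTop ∧ Tendsto (fun t => (γ t).re) atBot atBot :=
  top_of_per (Complex.continuous_re.comp H.cont) H.pos fun t => by simp [H.per]

theorem im_top (H : Crv γ a) :
    Tendsto (fun t => (γ t).im) atTop atTop ∧ Tendsto (fun t => (γ t).im) atBot atBot :=
  top_of_per (Complex.continuous_im.comp H.cont) H.pos fun t => by simp [H.per]

theorem evTop (H : Crv γ a) (z : ℂ) :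
    ∀ᶠ t in atTop, 0 < (γ t - z).re ∧ 0 < (γ t - z).im := by
  filter_upwards [H.re_top.1.eventually_gt_atTop z.re, H.im_top.1.eventually_gt_atTop z.im]
    with t h1 h2
  simp only [Complex.sub_re, Complex.sub_im]
  constructor <;> linarith

theorem evBot (H : Crv γ a) (z : ℂ) :
    ∀ᶠ t in atBot, (γ t - z).re < 0 ∧ (γ t - z).im < 0 := by
  filter_upwards [H.re_top.2.eventually_lt_atBot z.re, H.im_top.2.eventually_lt_atBot z.im]
    with t h1 h2
  simp only [Complex.sub_re, Complex.sub_im]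
  constructor <;> linarith

theorem emb (H : Crv γ a) : IsClosedEmbedding γ := by
  refine IsClosedEmbedding.of_continuous_injective_isClosedMap H.cont H.inj ?_
  refine IsProperMap.isClosedMap (isProperMap_iff_tendsto_cocompact.2 ⟨H.cont, ?_⟩)
  rw [cocompact_eq_atBot_atTop, ← cobounded_eq_cocompact, ← tendsto_norm_atTop_iff_cobounded,
    tendsto_sup]
  constructor
  · refine tendsto_atTop_mono (fun t => Complex.abs_re_le_norm (γ t)) ?_
    exact tendsto_abs_atBot_atTop.comp H.re_top.2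
  · refine tendsto_atTop_mono (fun t => Complex.abs_re_le_norm (γ t)) ?_
    exact tendsto_abs_atTop_atTop.comp H.re_top.1

end Crv

/-- a continuous logarithm of `γ t - z`, principal for large `t` -/
def IsL (γ : ℝ → ℂ) (z : ℂ) (L : ℝ → ℂ) : Prop :=
  Continuous L ∧ (∀ t, Complex.exp (L t) = γ t - z) ∧
    ∀ᶠ t in atTop, 0 < (L t).im ∧ (L t).im < π / 2

theorem log_uniq {L L' : ℝ → ℂ} (h : Continuous L) (h' : Continuous L')
    (he : ∀ t, Complex.exp (L t) = Complex.exp (L' t)) {s : ℝ}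
    (hs : |(L s).im - (L' s).im| < 2 * π) (t : ℝ) : L t = L' t := by
  have h1 : ∀ t, Complex.exp (L t - L' t) = 1 := fun t => by
    rw [Complex.exp_sub, he, div_self (Complex.exp_ne_zero _)]
  have h2 := const_of_exp (M := fun t => L t - L' t) (by fun_prop) h1 t s
  obtain ⟨n, hn⟩ := Complex.exp_eq_one_iff.1 (h1 s)
  have h3 : (L s).im - (L' s).im = n * (2 * π) := by
    have := congrArg Complex.im hn
    simpa using this
  have hpi := pi_pos
  rw [h3, abs_mul, abs_of_pos (by positivity : 0 < 2 * π)] at hs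
  have h4 : |(n : ℝ)| < 1 := by nlinarith
  have h5 : n = 0 := by
    rw [← Int.cast_abs] at h4
    have : |n| < 1 := by exact_mod_cast h4
    exact Int.abs_lt_one_iff.1 this
  rw [hn, h5] at h2
  simpa [sub_eq_zero] using h2

theorem arg_quad {w : ℂ} (h1 : 0 < w.re) (h2 : 0 < w.im) : 0 < w.arg ∧ w.arg < π / 2 := by
  refine ⟨lt_of_le_of_ne (Complex.arg_nonneg_iff.2 h2.le) ?_, ?_⟩
  · intro e
    exact h2.ne' (Complex.arg_eq_zero_iff.1 e.symm).2
  · exact (abs_lt.1 (Complex.abs_arg_lt_pi_div_two_iff.2 (Or.inl h1))).2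

theorem Crv.exists_L {γ : ℝ → ℂ} {a : ℝ} (H : Crv γ a) {z : ℂ} (hz : z ∉ range γ) :
    ∃ L, IsL γ z L := by
  have hc := H.cont
  obtain ⟨M, hM, hMe⟩ := exists_log (G := fun t => γ t - z) (by fun_prop)
    fun t e => hz ⟨t, sub_eq_zero.1 e⟩
  obtain ⟨s, hs⟩ := eventually_atTop.1 (H.evTop z)
  have h0 : ∀ t, γ t - z ≠ 0 := fun t e => hz ⟨t, sub_eq_zero.1 e⟩
  have hcl : Continuous fun t => Complex.log (γ (max t s) - z) :=
    Continuous.clog (by fun_prop) fun t => Or.inl (hs _ (le_max_right t s)).1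
  have key : ∀ t, M (max t s) - (M s - Complex.log (γ s - z)) = Complex.log (γ (max t s) - z) := by
    have h1 : Complex.exp (M s - Complex.log (γ s - z)) = 1 := by
      rw [Complex.exp_sub, hMe, Complex.exp_log (h0 s), div_self (h0 s)]
    refine log_uniq (s := s) (by fun_prop) hcl (fun t => ?_) ?_
    · rw [Complex.exp_sub, h1, hMe, Complex.exp_log (h0 _), div_one]
    · simp [pi_pos]
  refine ⟨fun t => M t - (M s - Complex.log (γ s - z)), by fun_prop, fun t => ?_, ?_⟩
  · rw [Complex.exp_sub, hMe, Complex.exp_sub, hMe, Complex.exp_log (h0 s), div_self (h0 s),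
      div_one]
  · filter_upwards [eventually_ge_atTop s] with t ht
    have := key t
    rw [max_eq_left ht] at this
    rw [this, Complex.log_im]
    exact arg_quad (hs t ht).1 (hs t ht).2

/-- the lifted logarithm -/
noncomputable def lg (γ : ℝ → ℂ) (z : ℂ) : ℝ → ℂ := Classical.epsilon (IsL γ z)

/-- the lifted angle under which `z` sees `γ t` -/
noncomputable def th (γ : ℝ → ℂ) (z : ℂ) (t : ℝ) : ℝ := (lg γ z t).im

namespace Crv

variable {γ : ℝ → ℂ} {a : ℝ}

theorem lg_spec (H : Crv γ a) {z : ℂ} (hz : z ∉ range γ) : IsL γ z (lg γ z) :=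
  Classical.epsilon_spec (H.exists_L hz)

theorem th_cont (H : Crv γ a) {z : ℂ} (hz : z ∉ range γ) : Continuous (th γ z) :=
  Complex.continuous_im.comp (H.lg_spec hz).1

theorem th_top (H : Crv γ a) {z : ℂ} (hz : z ∉ range γ) :
    ∀ᶠ t in atTop, 0 < th γ z t ∧ th γ z t < π / 2 := (H.lg_spec hz).2.2

theorem polar (H : Crv γ a) {z : ℂ} (hz : z ∉ range γ) (t : ℝ) :
    ∃ r : ℝ, 0 < r ∧ (γ t - z).re = r * cos (th γ z t) ∧ (γ t - z).im = r * sin (th γ z t) := by
  refine ⟨Real.exp (lg γ z t).re, Real.exp_pos _, ?_, ?_⟩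
  · rw [← (H.lg_spec hz).2.1 t, Complex.exp_re]
    rfl
  · rw [← (H.lg_spec hz).2.1 t, Complex.exp_im]
    rfl

theorem per_mem (H : Crv γ a) (z : ℂ) :
    z + (a + a * Complex.I) ∈ range γ ↔ z ∈ range γ := by
  constructor
  · rintro ⟨t, ht⟩
    refine ⟨t - 1, ?_⟩
    have := H.per (t - 1)
    rw [sub_add_cancel, ht] at this
    linear_combination -this
  · rintro ⟨t, rfl⟩
    exact ⟨t + 1, H.per t⟩

theorem th_per (H : Crv γ a) {z : ℂ} (hz : z ∉ range γ) (t : ℝ) :
    th γ (z + (a + a * Complex.I)) (t + 1) = th γ z t := by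
  have hz' := mt (H.per_mem z).1 hz
  obtain ⟨h1, h2, h3⟩ := H.lg_spec hz
  obtain ⟨h1', h2', h3'⟩ := H.lg_spec hz'
  obtain ⟨s, hs, hs'⟩ := (h3.and ((tendsto_atTop_add_const_right _ 1 tendsto_id).eventually h3')).exists
  have hpi := pi_pos
  have := log_uniq (L := fun t => lg γ (z + (a + a * Complex.I)) (t + 1)) (L' := lg γ z) (s := s)
    (by fun_prop) h1 (fun t => by rw [h2', h2, H.per]; ring) (by
      simp only [id] at hs'
      rw [abs_lt]
      constructor <;> linarith [hs.1, hs.2, hs'.1, hs'.2]) t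
  exact congrArg Complex.im this

/-- uniform continuity of the lifted angle in the base point -/
theorem th_near (H : Crv γ a) {z : ℂ} (hz : z ∉ range γ) {ε : ℝ} (hε : 0 < ε) :
    ∀ᶠ z' in 𝓝 z, z' ∉ range γ ∧ ∀ t, |th γ z' t - th γ z t| < ε := by
  have hcl := H.emb.isClosed_range
  obtain ⟨d, hd, hdz⟩ := Metric.isOpen_iff.1 hcl.isOpen_compl z hz
  have h1 : ∀ᶠ w in 𝓝 (1 : ℂ), w ∈ Complex.slitPlane ∧ |w.arg| < min ε π := by
    refine Eventually.and (Complex.isOpen_slitPlane.mem_nhds Complex.one_mem_slitPlane) ?_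
    have h2 := (Complex.continuousAt_arg Complex.one_mem_slitPlane).abs
    refine h2.eventually_lt continuousAt_const ?_
    simp [hε, pi_pos]
  obtain ⟨η, hη, hηw⟩ := Metric.eventually_nhds_iff.1 h1
  have h0 : ∀ t, γ t - z ≠ 0 := fun t e => hz ⟨t, sub_eq_zero.1 e⟩
  have hdt : ∀ t, d ≤ ‖γ t - z‖ := fun t => by
    by_contra hlt
    exact hdz (mem_ball_iff_norm.2 (not_le.1 hlt)) (mem_range_self t)
  filter_upwards [ball_mem_nhds z hd, ball_mem_nhds z (mul_pos hη hd)] with z' hz1 hz2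
  have hz' : z' ∉ range γ := hdz hz1
  have h0' : ∀ t, γ t - z' ≠ 0 := fun t e => hz' ⟨t, sub_eq_zero.1 e⟩
  refine ⟨hz', ?_⟩
  have hw : ∀ t, dist ((γ t - z') / (γ t - z)) 1 < η := by
    intro t
    rw [dist_eq_norm, show (γ t - z') / (γ t - z) - 1 = -(z' - z) / (γ t - z) by
      field_simp [h0 t]; ring, norm_div, norm_neg, div_lt_iff₀ (norm_pos_iff.2 (h0 t))]
    exact (mem_ball_iff_norm.1 hz2).trans_le (mul_le_mul_of_nonneg_left (hdt t) hη.le)
  obtain ⟨h1, h2, h3⟩ := H.lg_spec hz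
  obtain ⟨h1', h2', h3'⟩ := H.lg_spec hz'
  obtain ⟨s, hs, hs'⟩ := (h3.and h3').exists
  have hc := H.cont
  have hpi := pi_pos
  have hcw : Continuous fun t => Complex.log ((γ t - z') / (γ t - z)) :=
    Continuous.clog (Continuous.div (by fun_prop) (by fun_prop) h0) fun t => (hηw (hw t)).1
  have key := log_uniq (L := lg γ z')
    (L' := fun t => lg γ z t + Complex.log ((γ t - z') / (γ t - z))) (s := s) h1' (h1.add hcw)
    (fun t => by
      rw [h2', Complex.exp_add, h2, Complex.exp_log (div_ne_zero (h0' t) (h0 t)),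
        mul_div_cancel₀ _ (h0 t)]) (by
      have := abs_lt.1 ((hηw (hw s)).2.trans_le (min_le_right _ _))
      rw [Complex.add_im, Complex.log_im, abs_lt]
      constructor <;> linarith [hs.1, hs.2, hs'.1, hs'.2])
  intro t
  have := congrArg Complex.im (key t)
  rw [Complex.add_im, Complex.log_im] at this
  have h4 : th γ z' t - th γ z t = ((γ t - z') / (γ t - z)).arg := by
    simp only [th]
    linarith
  rw [h4]
  exact (hηw (hw t)).2.trans_le (min_le_left _ _)

end Crv

end Vale.Agent.P097G
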