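import Vale.Agent.P097G.Ang
import Vale.Agent.P097G.Tw

/-!
# P097, Birkhoff graph theorem: the area argument
-/

namespace Vale.Agent.P097G

open Set Topology Filter Metric MeasureTheory

/-- vertical slab -/
def slab (x y : ℝ) : Set ℂ := {z | x ≤ z.re ∧ z.re < y}

theorem slab_meas (x y : ℝ) : MeasurableSet (slab x y) :=
  (measurableSet_le measurable_const Complex.measurable_re).inter
    (measurableSet_lt Complex.measurable_re measurable_const)

theorem per_int {ω : ℂ} {W : Set ℂ} (hWp : ∀ z, z + ω ∈ W ↔ z ∈ W) (n : ℤ) (u : ℂ) :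
    u + n * ω ∈ W ↔ u ∈ W := by
  induction n using Int.induction_on generalizing u with
  | zero => simp
  | succ n ih =>
    rw [← ih u, ← hWp (u + (n : ℤ) * ω)]
    push_cast
    ring_nf
  | pred n ih =>
    rw [← ih u, ← hWp (u + ((-(n : ℤ) - 1 : ℤ) : ℂ) * ω)]
    push_cast
    ring_nf

variable {a : ℝ} {T : ℂ → ℂ} {μ : Measure ℂ}

theorem slab_tr (W : Twist a T μ) {X : Set ℂ} (hX : X ⊆ St a) (hm : MeasurableSet X)
    (hp : ∀ z, z + (a + a * Complex.I) ∈ X ↔ z ∈ X) (x y : ℝ) :
    μ (X ∩ slab (x + a) (y + a)) = μ (X ∩ slab x y) := by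
  rw [← W.tr (X ∩ slab x y) (inter_subset_left.trans hX) (hm.inter (slab_meas x y))]
  congr 1
  ext z
  constructor
  · rintro ⟨h1, h2, h3⟩
    refine ⟨z - (a + a * Complex.I), ⟨?_, ?_, ?_⟩, by ring⟩
    · rw [← hp, sub_add_cancel]
      exact h1
    · simp
      linarith
    · simp
      linarith
  · rintro ⟨w, ⟨h1, h2, h3⟩, rfl⟩
    refine ⟨(hp w).2 h1, ?_, ?_⟩
    · simpa using h2
    · simpa using h3

theorem slab_cnt (W : Twist a T μ) (ha : 0 < a) {X : Set ℂ} (hX : X ⊆ St a)
    (hm : MeasurableSet X) (hp : ∀ z, z + (a + a * Complex.I) ∈ X ↔ z ∈ X) (n : ℕ) :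
    μ (X ∩ slab 0 (n * a)) = n * μ (X ∩ slab 0 a) := by
  induction n with
  | zero =>
    have : slab 0 (((0 : ℕ) : ℝ) * a) = ∅ := by
      ext z
      simp [slab]
    rw [this]
    simp
  | succ n ih =>
    have h1 : X ∩ slab 0 (((n + 1 : ℕ) : ℝ) * a) =
        (X ∩ slab 0 a) ∪ (X ∩ slab (0 + a) (n * a + a)) := by
      rw [← inter_union_distrib_left]
      congr 1
      ext z
      have : (0 : ℝ) ≤ n * a := by positivity
      simp only [slab, mem_ofPred_eq, mem_union]
      push_cast
      constructor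
      · rintro ⟨h1, h2⟩
        by_cases h : z.re < a
        · exact Or.inl ⟨h1, h⟩
        · exact Or.inr ⟨by linarith, by linarith⟩
      · rintro (⟨h1, h2⟩ | ⟨h1, h2⟩) <;> constructor <;> linarith
    rw [h1, measure_union _ (hm.inter (slab_meas _ _)), slab_tr W hX hm hp, ih]
    · push_cast
      ring
    · rw [disjoint_left]
      rintro z ⟨-, -, h2⟩ ⟨-, h3, -⟩
      linarith

theorem squeeze (W : Twist a T μ) {γ : ℝ → ℂ} (H : Crv γ a) {A B : Set ℂ} (hA : IsOpen A)
    (hAp : ∀ z, z + (a + a * Complex.I) ∈ A ↔ z ∈ A)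
    (hBp : ∀ z, z + (a + a * Complex.I) ∈ B ↔ z ∈ B) {m M : ℝ} (hm : 0 < m) (hM : M < a)
    (hK : ∀ z ∈ A, m ≤ z.im - z.re ∧ z.im - z.re ≤ M) (hd : ∀ t, γ t ∉ A) (hBA : B ⊆ A)
    (hcl : ∀ z ∈ closure B, z ∉ range γ → z ∈ A)
    (hμ : ∀ n : ℕ, μ (A ∩ slab 0 (n * a)) ≤ μ (B ∩ slab (-a) (n * a + a))) : A = ∅ := by
  have ha := H.pos
  have hAS : A ⊆ St a := fun z hz => ⟨by linarith [(hK z hz).1], by linarith [(hK z hz).2]⟩
  have hCp : ∀ z, z + (a + a * Complex.I) ∈ closure B ↔ z ∈ closure B := by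
    intro z
    have h1 := (Homeomorph.addRight ((a : ℂ) + a * Complex.I)).preimage_closure B
    have h2 : Homeomorph.addRight ((a : ℂ) + a * Complex.I) ⁻¹' B = B := ext fun w => hBp w
    rw [h2] at h1
    exact Set.ext_iff.1 h1 z
  have hE : IsOpen (A \ closure B) := hA.sdiff isClosed_closure
  have hEp : ∀ z, z + (a + a * Complex.I) ∈ A \ closure B ↔ z ∈ A \ closure B := fun z => by
    simp only [Set.mem_sdiff, hAp, hCp]
  have hCm : MeasurableSet (A ∩ closure B) := hA.measurableSet.inter isClosed_closure.measurableSet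
  have hCp' : ∀ z, z + (a + a * Complex.I) ∈ A ∩ closure B ↔ z ∈ A ∩ closure B := fun z => by
    simp only [mem_inter_iff, hAp, hCp]
  have hfin : μ (A ∩ slab 0 a) ≠ ⊤ := by
    have hc : IsCompact {z : ℂ | (0 ≤ z.re ∧ z.re ≤ a) ∧ m ≤ z.im - z.re ∧ z.im - z.re ≤ M} := by
      refine Metric.isCompact_of_isClosed_isBounded ?_ ?_
      · have c1 : Continuous fun z : ℂ => z.im - z.re := by fun_prop
        exact ((isClosed_le continuous_const Complex.continuous_re).inter
          (isClosed_le Complex.continuous_re continuous_const)).inter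
          ((isClosed_le continuous_const c1).inter (isClosed_le c1 continuous_const))
      · refine (isBounded_closedBall (x := (0 : ℂ)) (r := 3 * a)).subset ?_
        rintro z ⟨⟨h1, h2⟩, h3, h4⟩
        rw [mem_closedBall_zero_iff]
        refine (Complex.norm_le_abs_re_add_abs_im z).trans ?_
        rw [abs_of_nonneg h1, abs_of_nonneg (by linarith)]
        linarith
    refine ne_top_of_le_ne_top (W.fin _ ?_ hc) (measure_mono ?_)
    · rintro z ⟨-, h3, h4⟩
      exact ⟨by linarith, by linarith⟩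
    · rintro z ⟨h1, h2, h3⟩
      exact ⟨⟨h2, h3.le⟩, hK z h1⟩
  have hsum : μ (A ∩ closure B ∩ slab 0 a) + μ ((A \ closure B) ∩ slab 0 a) =
      μ (A ∩ slab 0 a) := by
    rw [← measure_inter_add_sdiff (A ∩ slab 0 a) (isClosed_closure (s := B)).measurableSet]
    congr 2
    · exact inter_right_comm _ _ _
    · ext z
      simp only [mem_inter_iff, Set.mem_sdiff]
      tauto
  have hn : ∀ n : ℕ, n * μ (A ∩ slab 0 a) ≤ (n + 2 : ℕ) * μ (A ∩ closure B ∩ slab 0 a) := by
    intro n
    rw [← slab_cnt W ha hAS hA.measurableSet hAp,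
      ← slab_cnt W ha (inter_subset_left.trans hAS) hCm hCp']
    refine (hμ n).trans ?_
    have h1 := slab_tr W (inter_subset_left.trans hAS) hCm hCp' (-a) (n * a + a)
    rw [neg_add_cancel, show n * a + a + a = ((n + 2 : ℕ) : ℝ) * a by push_cast; ring] at h1
    rw [h1]
    exact measure_mono (inter_subset_inter_left _ (subset_inter hBA subset_closure))
  have he : μ ((A \ closure B) ∩ slab 0 a) = 0 := by
    have hb : μ (A ∩ closure B ∩ slab 0 a) ≠ ⊤ := ne_top_of_le_ne_top hfin (hsum ▸ le_self_add)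
    have he : μ ((A \ closure B) ∩ slab 0 a) ≠ ⊤ := ne_top_of_le_ne_top hfin (hsum ▸ le_add_self)
    rw [← hsum] at hn
    lift μ (A ∩ closure B ∩ slab 0 a) to NNReal using hb with β
    lift μ ((A \ closure B) ∩ slab 0 a) to NNReal using he with e
    by_contra h0
    have h1 : (0 : ℝ) < e := by
      have : e ≠ 0 := fun h => h0 (by rw [h]; rfl)
      positivity
    obtain ⟨n, hn'⟩ := exists_nat_gt (2 * (β : ℝ) / e)
    have h2 : (n : ℝ) * (β + e) ≤ (n + 2) * β := by exact_mod_cast hn n
    rw [div_lt_iff₀ h1] at hn'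
    nlinarith
  have hE0 : A \ closure B = ∅ := by
    by_contra hne
    obtain ⟨z, hz⟩ := nonempty_iff_ne_empty.2 hne
    have h2 := slab_cnt W ha (sdiff_subset.trans hAS) hE.measurableSet hEp 2
    rw [he, mul_zero] at h2
    refine W.pos ((A \ closure B) ∩ {z | 0 < z.re ∧ z.re < 2 * a})
      (inter_subset_left.trans (sdiff_subset.trans hAS)) (hE.inter ?_) ?_
      (measure_mono_null (inter_subset_inter_right _ ?_) h2)
    · exact (isOpen_lt continuous_const Complex.continuous_re).inter
        (isOpen_lt Complex.continuous_re continuous_const)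
    · refine ⟨z + ((1 - ⌊z.re / a⌋ : ℤ) : ℂ) * (a + a * Complex.I), (per_int hEp _ z).2 hz, ?_⟩
      have h3 := Int.floor_le (z.re / a)
      have h4 := Int.lt_floor_add_one (z.re / a)
      rw [le_div_iff₀ ha] at h3
      rw [div_lt_iff₀ ha] at h4
      simp
      constructor <;> nlinarith
    · rintro w ⟨h1, h2⟩
      exact ⟨h1.le, by exact_mod_cast h2⟩
  have hAB : closure A ⊆ closure B := closure_minimal (sdiff_eq_empty.1 hE0) isClosed_closure
  have hω : ((a : ℂ) + a * Complex.I) ≠ 0 := fun e => by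
    have := congrArg Complex.re e
    simp at this
    exact ha.ne' this
  refine sepJ hω H.cont H.inj H.per hA hAp (R := 1) (fun z hz => ?_) hd ?_
  · have h1 : (z / (a + a * Complex.I)).im = (z.im - z.re) / (2 * a) := by
      rw [Complex.div_im]
      simp [Complex.normSq_apply]
      field_simp
      ring
    have := hK z hz
    rw [h1, abs_div, abs_of_pos (by positivity : 0 < 2 * a), div_le_one (by positivity),
      abs_of_nonneg (by linarith)]
    linarith
  · intro z hz
    by_contra h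
    rw [hA.frontier_eq] at hz
    exact hz.2 (hcl z (hAB hz.1) h)

end Vale.Agent.P097G
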