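import Vale.Agent.P097G.Ang

/-!
# P097, Birkhoff graph theorem: a simple closed curve of the annulus turns at most once
-/

namespace Vale.Agent.P097G

open Set Topology Filter Real Vale.Agent.P155.Tree.UQ

theorem half_var {M w : ℝ → ℂ} (hM : Continuous M) (hw : Continuous w)
    (he : ∀ t, Complex.exp (M t) = w t) {e : ℂ} (he0 : e ≠ 0) (h : ∀ t, 0 ≤ (e * w t).re)
    (s t : ℝ) : (M t - M s).im = (e * w t).arg - (e * w s).arg := by
  have h0 : ∀ t, w t ≠ 0 := fun t => he t ▸ Complex.exp_ne_zero _
  have h1 : ∀ t, e * w t ≠ 0 := fun t => mul_ne_zero he0 (h0 t)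
  have hsl : ∀ t, e * w t ∈ Complex.slitPlane := fun t => by
    rcases (h t).eq_or_lt with h2 | h2
    · exact Or.inr fun h3 => h1 t (Complex.ext h2.symm h3)
    · exact Or.inl h2
  have hc : Continuous fun t => Complex.log (e * w t) := Continuous.clog (by fun_prop) hsl
  have key := const_of_exp (M := fun t => M t - Complex.log (e * w t) + Complex.log e)
    (by fun_prop) (fun t => by
      rw [Complex.exp_add, Complex.exp_sub, he, Complex.exp_log (h1 t), Complex.exp_log he0]
      have := h0 t
      field_simp) s t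
  have := congrArg Complex.im key
  simp only [Complex.add_im, Complex.sub_im, Complex.log_im] at this ⊢
  linarith

theorem deg {γ : ℝ → ℂ} (hc : Continuous γ) {ω : ℂ} (hω : ω ≠ 0) {k : ℤ} (hk : 2 ≤ k)
    (hp : ∀ t, γ (t + 1) = γ t + k * ω) (hne : ∀ s t, γ t - γ s ≠ ω) : False := by
  obtain ⟨M, hM, hMe⟩ := exists_log (G := fun p : ℝ × ℝ => (γ p.2 - γ p.1) / ω - 1) (by fun_prop)
    fun p e => hne p.1 p.2 ((div_eq_one_iff_eq hω).1 (sub_eq_zero.1 e))
  have hk1 : (0 : ℝ) < k - 1 := by
    have : (2 : ℝ) ≤ k := by exact_mod_cast hk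
    linarith
  have e1 : ∀ s, (γ (s + 1) - γ s) / ω - 1 = ((k - 1 : ℝ) : ℂ) := fun s => by
    rw [hp]
    push_cast
    field_simp
    ring
  have e0 : ∀ s, (γ s - γ s) / ω - 1 = -1 := fun s => by simp
  have hk0 : ((k - 1 : ℝ) : ℂ) ≠ 0 := by exact_mod_cast hk1.ne'
  have hD := const_of_exp
    (M := fun s => M (s, s + 1) - M (s, s) - (M (0, 0 + 1) - M (0, 0))) (by fun_prop) (fun s => by
      simp only [Complex.exp_sub, hMe, e1, e0]
      field_simp)
  have hl : Continuous fun t => (γ t / ω).im := by fun_prop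
  have hper : Function.Periodic (fun t => (γ t / ω).im) 1 := fun t => by
    simp only [hp]
    rw [add_div, mul_div_cancel_right₀ _ hω]
    simp
  have hK := hper.compact_of_continuous one_ne_zero hl
  obtain ⟨_, ⟨s, rfl⟩, hs⟩ := hK.exists_isLeast (range_nonempty _)
  obtain ⟨_, ⟨s', rfl⟩, hs'⟩ := hK.exists_isGreatest (range_nonempty _)
  have h1 := half_var (M := fun t => M (s, t)) (w := fun t => (γ t - γ s) / ω - 1) (by fun_prop)
    (by fun_prop) (fun t => hMe (s, t)) (neg_ne_zero.2 Complex.I_ne_zero) (fun t => by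
      have := hs (mem_range_self t)
      rw [sub_div]
      simpa using this) s (s + 1)
  have h2 := half_var (M := fun t => M (s', t)) (w := fun t => (γ t - γ s') / ω - 1) (by fun_prop)
    (by fun_prop) (fun t => hMe (s', t)) Complex.I_ne_zero (fun t => by
      have := hs' (mem_range_self t)
      rw [sub_div]
      simpa using this) s' (s' + 1)
  simp only [e1, e0] at h1 h2
  rw [Complex.arg_mul_real hk1] at h1 h2
  have h3 := congrArg Complex.im (hD s s')
  simp only [Complex.sub_im] at h1 h2 h3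
  simp at h1 h2
  linarith [pi_pos]

end Vale.Agent.P097G
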