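import Vale.Agent.P097G.Rot

/-!
# P097: the Birkhoff graph theorem for area preserving twist maps
-/

namespace Vale.Agent.P097G

open Set Topology Filter Metric MeasureTheory Real

variable {a : ℝ} {T : ℂ → ℂ} {μ : Measure ℂ} {γ : ℝ → ℂ}

/-- points which see the curve under a too small (`σ = 1`) or too large (`σ = -1`) angle -/
def Wg (γ : ℝ → ℂ) (σ : ℝ) (P : ℂ → Prop) (c : ℝ) : Set ℂ :=
  {z | z ∉ range γ ∧ ((∃ t, σ * th γ z t < c - π) ∨ (P z ∧ ∃ t, σ * th γ z t < c))}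

theorem sig_near {σ x y ε : ℝ} (hσ : |σ| = 1) (h : |x - y| < ε) : |σ * x - σ * y| < ε := by
  rw [← mul_sub, abs_mul, hσ, one_mul]
  exact h

theorem Wg_open (H : Crv γ a) {σ : ℝ} (hσ : |σ| = 1) {P : ℂ → Prop}
    (hP : ∀ z ∉ range γ, ∀ᶠ z' in 𝓝 z, (P z' ↔ P z)) (c : ℝ) : IsOpen (Wg γ σ P c) := by
  refine isOpen_iff_mem_nhds.2 ?_
  rintro z ⟨hz, ⟨t, ht⟩ | ⟨h1, t, ht⟩⟩
  · filter_upwards [H.th_near hz (sub_pos.2 ht)] with z' h
    exact ⟨h.1, Or.inl ⟨t, by linarith [abs_lt.1 (sig_near hσ (h.2 t))]⟩⟩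
  · filter_upwards [H.th_near hz (sub_pos.2 ht), hP z hz] with z' h h'
    exact ⟨h.1, Or.inr ⟨h'.2 h1, t, by linarith [abs_lt.1 (sig_near hσ (h.2 t))]⟩⟩

theorem Wg_cl (H : Crv γ a) {σ : ℝ} (hσ : |σ| = 1) {P : ℂ → Prop}
    (hP : ∀ z ∉ range γ, ∀ᶠ z' in 𝓝 z, (P z' ↔ P z)) {c c' : ℝ} (hc : c < c') :
    ∀ z ∈ closure (Wg γ σ P c), z ∉ range γ → z ∈ Wg γ σ P c' := by
  intro z hcl hz
  obtain ⟨z', ⟨-, h1⟩, h, h'⟩ := ((mem_closure_iff_frequently.1 hcl).and_eventually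
    ((H.th_near hz (sub_pos.2 hc)).and (hP z hz))).exists
  refine ⟨hz, ?_⟩
  rcases h1 with ⟨t, ht⟩ | ⟨h1, t, ht⟩
  · exact Or.inl ⟨t, by linarith [abs_lt.1 (sig_near hσ (h.2 t))]⟩
  · exact Or.inr ⟨h'.1 h1, t, by linarith [abs_lt.1 (sig_near hσ (h.2 t))]⟩

theorem Wg_mono {σ : ℝ} {P : ℂ → Prop} {c c' : ℝ} (hc : c ≤ c') : Wg γ σ P c ⊆ Wg γ σ P c' := by
  rintro z ⟨hz, ⟨t, ht⟩ | ⟨h1, t, ht⟩⟩
  · exact ⟨hz, Or.inl ⟨t, by linarith⟩⟩
  · exact ⟨hz, Or.inr ⟨h1, t, by linarith⟩⟩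

theorem Wg_per (H : Crv γ a) {σ : ℝ} {P : ℂ → Prop}
    (hP : ∀ z ∉ range γ, (P (z + (a + a * Complex.I)) ↔ P z)) (c : ℝ) (z : ℂ) :
    z + (a + a * Complex.I) ∈ Wg γ σ P c ↔ z ∈ Wg γ σ P c := by
  have key : ∀ d, z ∉ range γ → ((∃ t, σ * th γ (z + (a + a * Complex.I)) t < d) ↔
      ∃ t, σ * th γ z t < d) := by
    intro d hz
    constructor
    · rintro ⟨t, ht⟩
      refine ⟨t - 1, ?_⟩
      rw [← H.th_per hz, sub_add_cancel]
      exact ht
    · rintro ⟨t, ht⟩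
      exact ⟨t + 1, by rw [H.th_per hz]; exact ht⟩
  simp only [Wg, mem_ofPred_eq, H.per_mem]
  exact and_congr_right fun hz => by rw [key _ hz, key _ hz, hP z hz]

theorem Crv.lt_of_ne (H : Crv γ a) {z : ℂ} (hz : z ∉ range γ) {c : ℝ} (hc : π / 2 ≤ c)
    (h : ∀ t, th γ z t ≠ c) (t : ℝ) : th γ z t < c := by
  by_contra h1
  obtain ⟨s, hs⟩ := (H.th_top hz).exists
  obtain ⟨x, hx⟩ := intermediate_value_univ s t (H.th_cont hz) ⟨hs.2.le.trans hc, not_lt.1 h1⟩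
  exact h x hx

theorem Crv.gt_of_ne (H : Crv γ a) {z : ℂ} (hz : z ∉ range γ) {c : ℝ} (hc : c ≤ 0)
    (h : ∀ t, th γ z t ≠ c) (t : ℝ) : c < th γ z t := by
  by_contra h1
  obtain ⟨s, hs⟩ := (H.th_top hz).exists
  obtain ⟨x, hx⟩ := intermediate_value_univ t s (H.th_cont hz) ⟨not_lt.1 h1, hc.trans hs.1.le⟩
  exact h x hx

theorem Crv.below (H : Crv γ a) {z : ℂ} (hz : z ∉ range γ)
    (h : ∀ t, z.im - z.re < (γ t).im - (γ t).re) (t : ℝ) :
    0 < th γ z t ∧ th γ z t < π / 2 + π := by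
  have key : ∀ t, cos (th γ z t) < sin (th γ z t) := fun t => by
    obtain ⟨r, hr, h1, h2⟩ := H.polar hz t
    rw [Complex.sub_re] at h1
    rw [Complex.sub_im] at h2
    exact lt_of_mul_lt_mul_left (by linarith [h t]) hr.le
  refine ⟨H.gt_of_ne hz le_rfl (fun t e => ?_) t,
    H.lt_of_ne hz (by linarith [pi_pos]) (fun t e => ?_) t⟩
  · have := key t
    rw [e] at this
    norm_num at this
  · have := key t
    rw [e, cos_add_pi, sin_add_pi] at this
    norm_num at this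

theorem Crv.above (H : Crv γ a) {z : ℂ} (hz : z ∉ range γ)
    (h : ∀ t, (γ t).im - (γ t).re < z.im - z.re) (t : ℝ) :
    -π < th γ z t ∧ th γ z t < π / 2 := by
  have key : ∀ t, sin (th γ z t) < cos (th γ z t) := fun t => by
    obtain ⟨r, hr, h1, h2⟩ := H.polar hz t
    rw [Complex.sub_re] at h1
    rw [Complex.sub_im] at h2
    exact lt_of_mul_lt_mul_left (by linarith [h t]) hr.le
  refine ⟨H.gt_of_ne hz (by linarith [pi_pos]) (fun t e => ?_) t,
    H.lt_of_ne hz le_rfl (fun t e => ?_) t⟩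
  · have := key t
    rw [e] at this
    norm_num at this
  · have := key t
    rw [e] at this
    norm_num at this

theorem Crv.band (H : Crv γ a) (hS : ∀ t, γ t ∈ St a) :
    ∃ m M : ℝ, 0 < m ∧ M < a ∧ ∀ t, m ≤ (γ t).im - (γ t).re ∧ (γ t).im - (γ t).re ≤ M := by
  have hγ := H.cont
  have hc : Continuous fun t => (γ t).im - (γ t).re := by fun_prop
  have hp : Function.Periodic (fun t => (γ t).im - (γ t).re) 1 := fun t => by simp [H.per]
  have hK := hp.compact_of_continuous one_ne_zero hc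
  obtain ⟨_, ⟨s, rfl⟩, hs⟩ := hK.exists_isLeast (range_nonempty _)
  obtain ⟨_, ⟨s', rfl⟩, hs'⟩ := hK.exists_isGreatest (range_nonempty _)
  exact ⟨_, _, (hS s).1, (hS s').2, fun t => ⟨hs (mem_range_self t), hs' (mem_range_self t)⟩⟩

theorem no_ball (H : Crv γ a) {c : ℂ} {r : ℝ} (hr : 0 < r) (h : ball c r ⊆ range γ) : False := by
  have h1 : ∀ θ : ℝ, c + (r / 2 : ℝ) * Complex.exp (θ * Complex.I) ∈ range γ := fun θ => h (by
    rw [mem_ball_iff_norm, add_sub_cancel_left, norm_mul, Complex.norm_exp_ofReal_mul_I,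
      Complex.norm_real, Real.norm_eq_abs, abs_of_pos (half_pos hr)]
    linarith)
  choose ψ hψ using h1
  have hc : Continuous ψ := H.emb.isInducing.continuous_iff.2 (by
    have : γ ∘ ψ = fun θ : ℝ => c + (r / 2 : ℝ) * Complex.exp (θ * Complex.I) := funext hψ
    rw [this]
    fun_prop)
  have h2 : ψ (π + π) = ψ 0 := H.inj (by
    rw [hψ, hψ]
    push_cast
    rw [add_mul, Complex.exp_add, Complex.exp_pi_mul_I]
    simp)
  have h3 : ∃ θ, ψ θ - ψ (θ + π) = 0 := by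
    have hD : Continuous fun θ => ψ θ - ψ (θ + π) := by fun_prop
    rcases le_total (ψ 0) (ψ π) with h | h
    · exact intermediate_value_univ 0 π hD ⟨by simpa using h, by simpa [h2] using h⟩
    · exact intermediate_value_univ π 0 hD ⟨by simpa [h2] using h, by simpa using h⟩
  obtain ⟨θ, hθ⟩ := h3
  have h4 := congrArg γ (sub_eq_zero.1 hθ)
  rw [hψ, hψ] at h4
  push_cast at h4
  rw [add_mul, Complex.exp_add, Complex.exp_pi_mul_I] at h4
  have h5 : (r : ℂ) * Complex.exp (θ * Complex.I) = 0 := by linear_combination h4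
  exact mul_ne_zero (by exact_mod_cast hr.ne') (Complex.exp_ne_zero _) h5

/-- no chord of an invariant curve points into the open second quadrant -/
theorem no_chord (W : Twist a T μ) (H : Crv γ a) (hS : ∀ t, γ t ∈ St a)
    (hT : ∀ t, T (γ t) ∈ range γ) {s t : ℝ} (h1 : (γ t).re < (γ s).re)
    (h2 : (γ s).im < (γ t).im) : False := by
  obtain ⟨φ, hc, hφ, hp⟩ := exists_phi W H hS hT
  have htop := top_of_per hc one_pos hp
  have hsurj : Function.Surjective φ := hc.surjective htop.1 htop.2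
  obtain ⟨m, M, hm, hM, hb⟩ := H.band hS
  have hpi := pi_pos
  have c1 : cos (-(π / 2)) = 0 := by simp
  have c2 : cos (-(π / 2) - π) = 0 := by rw [cos_sub_pi, c1, neg_zero]
  have c3 : cos (π / 2 + π) = 0 := by rw [cos_add_pi, cos_pi_div_two, neg_zero]
  have hdn : ∀ z ∈ St a, z ∉ range γ → Dn γ (T z) → Dn γ z := fun z hz hzγ h =>
    H.dn_of hzγ ((htop.2.eventually h).mono fun t ht => by
      linarith [((th_T W H hS hc hφ hp hz hzγ).2 t _ c1).1.2 ht])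
  have hK1 : ∀ z ∈ Wg γ 1 (Up γ) 0, m ≤ z.im - z.re ∧ z.im - z.re ≤ M := by
    rintro z ⟨hz, h⟩
    constructor <;> by_contra h3 <;> rw [not_le] at h3
    · have h4 := H.below hz fun t => h3.trans_le (hb t).1
      rcases h with ⟨t, ht⟩ | ⟨-, t, ht⟩ <;> linarith [h4 t]
    · have h4 := H.above hz fun t => (hb t).2.trans_lt h3
      rcases h with ⟨t, ht⟩ | ⟨h5, -⟩
      · linarith [h4 t]
      · obtain ⟨t, ht⟩ := Eventually.exists h5
        linarith [h4 t]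
  have hK2 : ∀ z ∈ Wg γ (-1) (Dn γ) (-(π / 2)), m ≤ z.im - z.re ∧ z.im - z.re ≤ M := by
    rintro z ⟨hz, h⟩
    constructor <;> by_contra h3 <;> rw [not_le] at h3
    · have h4 := H.below hz fun t => h3.trans_le (hb t).1
      rcases h with ⟨t, ht⟩ | ⟨h5, -⟩
      · linarith [h4 t]
      · obtain ⟨t, ht⟩ := Eventually.exists h5
        linarith [h4 t]
    · have h4 := H.above hz fun t => (hb t).2.trans_lt h3
      rcases h with ⟨t, ht⟩ | ⟨-, t, ht⟩ <;> linarith [h4 t]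
  have hS1 : Wg γ 1 (Up γ) 0 ⊆ St a := fun z hz =>
    ⟨by linarith [(hK1 z hz).1], by linarith [(hK1 z hz).2]⟩
  have hS2 : Wg γ (-1) (Dn γ) (-(π / 2)) ⊆ St a := fun z hz =>
    ⟨by linarith [(hK2 z hz).1], by linarith [(hK2 z hz).2]⟩
  have o1 := Wg_open H abs_one fun z hz => H.up_near hz
  have s2 : |(-1 : ℝ)| = 1 := by simp
  have o2 := Wg_open H s2 fun z hz => H.dn_near hz
  have E1 : Wg γ 1 (Up γ) 0 = ∅ := by
    refine squeeze W H (B := Wg γ 1 (Up γ) (-(π / 2))) (o1 _)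
      (Wg_per H (fun z hz => H.up_per hz) _) (Wg_per H (fun z hz => H.up_per hz) _) hm hM hK1
      (fun t ht => ht.1 (mem_range_self t)) (Wg_mono (by linarith))
      (Wg_cl H abs_one (fun z hz => H.up_near hz) (by linarith)) fun n => ?_
    rw [← W.inv _ (inter_subset_left.trans hS1) ((o1 _).measurableSet.inter (slab_meas _ _))]
    refine measure_mono ?_
    rintro _ ⟨z, ⟨hz, h3, h4⟩, rfl⟩
    have hzS := hS1 hz
    obtain ⟨h5, h6⟩ := th_T W H hS hc hφ hp hzS hz.1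
    refine ⟨⟨h5, ?_⟩, ?_, ?_⟩
    · rcases hz.2 with ⟨t, ht⟩ | ⟨h7, t, ht⟩
      · exact Or.inl ⟨φ t, by linarith [(h6 t _ c2).1.1 (by linarith)]⟩
      · refine Or.inr ⟨(H.up_or_dn h5).resolve_right fun h => not_up_dn h7 (hdn z hzS hz.1 h),
          φ t, by linarith [(h6 t _ c1).1.1 (by linarith)]⟩
    · rw [W.re z hzS]
      linarith [hzS.1, H.pos]
    · rw [W.re z hzS]
      linarith [hzS.2]
  have E2 : Wg γ (-1) (Dn γ) (-(π / 2)) = ∅ := by
    have hBA : Wg γ (-1) (Dn γ) (-π) ⊆ Wg γ (-1) (Dn γ) (-(π / 2)) := Wg_mono (by linarith)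
    refine squeeze W H (B := Wg γ (-1) (Dn γ) (-π)) (o2 _)
      (Wg_per H (fun z hz => H.dn_per hz) _) (Wg_per H (fun z hz => H.dn_per hz) _) hm hM hK2
      (fun t ht => ht.1 (mem_range_self t)) hBA
      (Wg_cl H s2 (fun z hz => H.dn_near hz) (by linarith)) fun n => ?_
    rw [← W.inv (_ ∩ slab (-a) _) (inter_subset_left.trans (hBA.trans hS2))
      ((o2 _).measurableSet.inter (slab_meas _ _))]
    refine measure_mono ?_
    rintro w ⟨hw, h3, h4⟩
    obtain ⟨z, hzS, rfl⟩ := W.bij.surjOn (hS2 hw)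
    have hz : z ∉ range γ := by
      rintro ⟨t, rfl⟩
      exact hw.1 (hT t)
    obtain ⟨-, h6⟩ := th_T W H hS hc hφ hp hzS hz
    rw [W.re z hzS] at h3 h4
    refine ⟨z, ⟨⟨hz, ?_⟩, by linarith [hzS.2], by linarith [hzS.1, H.pos]⟩, rfl⟩
    rcases hw.2 with ⟨t, ht⟩ | ⟨h7, t, ht⟩ <;> obtain ⟨t, rfl⟩ := hsurj t
    · exact Or.inl ⟨t, by linarith [(h6 t _ c3).2.2 (by linarith)]⟩
    · exact Or.inr ⟨hdn z hzS hz h7, t,
        by linarith [(h6 t _ cos_pi_div_two).2.2 (by linarith)]⟩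
  refine no_ball H (c := (γ s + γ t) / 2)
    (r := min (((γ s).re - (γ t).re) / 2) (((γ t).im - (γ s).im) / 2))
    (lt_min (by linarith) (by linarith)) fun z hz => ?_
  by_contra hzγ
  rw [mem_ball_iff_norm, lt_min_iff] at hz
  have h3 := abs_lt.1 ((Complex.abs_re_le_norm _).trans_lt hz.1)
  have h4 := abs_lt.1 ((Complex.abs_im_le_norm _).trans_lt hz.2)
  simp only [Complex.sub_re, Complex.sub_im, Complex.div_ofNat_re, Complex.div_ofNat_im,
    Complex.add_re, Complex.add_im] at h3 h4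
  have n1 : z ∉ Wg γ 1 (Up γ) 0 := E1 ▸ notMem_empty z
  have n2 : z ∉ Wg γ (-1) (Dn γ) (-(π / 2)) := E2 ▸ notMem_empty z
  rcases H.up_or_dn hzγ with h | h
  · obtain ⟨r, hr, h5, h6⟩ := H.polar hzγ s
    rw [Complex.sub_re] at h5
    rw [Complex.sub_im] at h6
    have h7 : 0 ≤ th γ z s := not_lt.1 fun e => n1 ⟨hzγ, Or.inr ⟨h, s, by linarith⟩⟩
    have h8 : th γ z s ≤ π + π / 2 := not_lt.1 fun e => n2 ⟨hzγ, Or.inl ⟨s, by linarith⟩⟩
    rcases le_total (th γ z s) π with h9 | h9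
    · linarith [mul_nonneg hr.le (sin_nonneg_of_nonneg_of_le_pi h7 h9)]
    · linarith [mul_nonpos_of_nonneg_of_nonpos hr.le
        (cos_nonpos_of_pi_div_two_le_of_le (by linarith) h8)]
  · obtain ⟨r, hr, h5, h6⟩ := H.polar hzγ t
    rw [Complex.sub_re] at h5
    rw [Complex.sub_im] at h6
    have h7 : -π ≤ th γ z t := not_lt.1 fun e => n1 ⟨hzγ, Or.inl ⟨t, by linarith⟩⟩
    have h8 : th γ z t ≤ π / 2 := not_lt.1 fun e => n2 ⟨hzγ, Or.inr ⟨h, t, by linarith⟩⟩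
    rcases le_total (th γ z t) 0 with h9 | h9
    · linarith [mul_nonpos_of_nonneg_of_nonpos hr.le (sin_nonpos_of_nonpos_of_neg_pi_le h9 h7)]
    · linarith [mul_nonneg hr.le (cos_nonneg_of_neg_pi_div_two_le_of_le (by linarith) h8)]

/-- Birkhoff's graph theorem -/
theorem graph (W : Twist a T μ) (H : Crv γ a) (hS : ∀ t, γ t ∈ St a)
    (hT : ∀ t, T (γ t) ∈ range γ) : StrictMono fun t => (γ t).re + (γ t).im := by
  have hγ := H.cont
  have hi : Function.Injective fun t => (γ t).re + (γ t).im := by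
    intro s t h
    have h1 : (γ s).re + (γ s).im = (γ t).re + (γ t).im := h
    rcases lt_trichotomy (γ s).re (γ t).re with h2 | h2 | h2
    · exact (no_chord W H hS hT h2 (by linarith)).elim
    · exact H.inj (Complex.ext h2 (by linarith))
    · exact (no_chord W H hS hT h2 (by linarith)).elim
  refine (Continuous.strictMono_of_inj (by fun_prop) hi).resolve_right fun h => ?_
  have h1 := h (show (0 : ℝ) < 0 + 1 by norm_num)
  simp only [H.per] at h1
  simp at h1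
  linarith [H.pos]

end Vale.Agent.P097G
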