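import Vale.Agent.P155Z.UNIQ.Jor

/-!
# P097, Birkhoff graph theorem: a separation lemma for periodic curves
-/

namespace Vale.Agent.P097G

open Set Topology Filter Metric Vale.Agent.P155.Tree.UQ

/-- A periodic open set at bounded distance from the axis, disjoint from a periodic simple curve
and with frontier inside the curve, is empty. -/
theorem sepJ {ω : ℂ} (hω : ω ≠ 0) {γ : ℝ → ℂ} (hγ : Continuous γ) (hi : Function.Injective γ)
    (hp : ∀ t, γ (t + 1) = γ t + ω) {W : Set ℂ} (hW : IsOpen W)
    (hWp : ∀ z, z + ω ∈ W ↔ z ∈ W) {R : ℝ} (hR : ∀ z ∈ W, |(z / ω).im| ≤ R)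
    (hd : ∀ t, γ t ∉ W) (hf : frontier W ⊆ range γ) : W = ∅ := by
  by_contra hne
  obtain ⟨z, hz⟩ := nonempty_iff_ne_empty.2 hne
  set c0 : ℂ := 2 * Real.pi * Complex.I with hc0
  have hc0n : c0 ≠ 0 := Complex.two_pi_I_ne_zero
  set E : ℂ → ℂ := fun u => Complex.exp (c0 / ω * u) with hE
  have hEc : Continuous E := by fun_prop
  have hEo : IsOpenMap E :=
    Complex.isOpenMap_exp.comp (Homeomorph.mulLeft₀ (c0 / ω) (div_ne_zero hc0n hω)).isOpenMap
  have hEe : ∀ u v, E u = E v → ∃ n : ℤ, u = v + n * ω := by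
    intro u v h
    obtain ⟨n, hn⟩ := Complex.exp_eq_exp_iff_exists_int.1 h
    refine ⟨n, ?_⟩
    have h1 : c0 / ω * u = c0 / ω * v + n * c0 := hn
    field_simp at h1
    linear_combination h1
  have hWn : ∀ (n : ℤ) (u : ℂ), u + n * ω ∈ W ↔ u ∈ W := by
    intro n
    induction n using Int.induction_on with
    | zero => intro u; simp
    | succ n ih =>
      intro u
      rw [← ih u, ← hWp (u + (n : ℤ) * ω)]
      push_cast
      ring_nf
    | pred n ih =>
      intro u
      rw [← ih u, ← hWp (u + ((-(n : ℤ) - 1 : ℤ) : ℂ) * ω)]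
      push_cast
      ring_nf
  have hpn : ∀ (n : ℤ) (t : ℝ), γ (t + n) = γ t + n * ω := by
    intro n
    induction n using Int.induction_on with
    | zero => intro u; simp
    | succ n ih =>
      intro t
      have := hp (t + (n : ℤ))
      rw [ih] at this
      push_cast at this ⊢
      rw [← add_assoc, this]
      ring
    | pred n ih =>
      intro t
      have := hp (t + ((-(n : ℤ) - 1 : ℤ) : ℝ))
      have h2 := ih t
      push_cast at this h2 ⊢
      rw [show t + (-(n : ℝ) - 1) + 1 = t + -n by ring, h2] at this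
      linear_combination -this
  have hpre : E ⁻¹' (E '' W) = W := by
    refine Subset.antisymm ?_ (subset_preimage_image E W)
    rintro u ⟨v, hv, huv⟩
    obtain ⟨n, rfl⟩ := hEe v u huv
    exact (hWn n u).1 hv
  have hnorm : ∀ u, ‖E u‖ = Real.exp (-(2 * Real.pi) * (u / ω).im) := by
    intro u
    rw [hE]
    simp only [Complex.norm_exp]
    congr 1
    rw [show c0 / ω * u = c0 * (u / ω) by ring, hc0]
    simp
  have hpi := Real.pi_pos
  have hV : IsOpen (E '' W) := hEo W hW
  have hb : Bornology.IsBounded (E '' W) := by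
    refine (isBounded_closedBall (x := (0 : ℂ)) (r := Real.exp (2 * Real.pi * R))).subset ?_
    rintro _ ⟨u, hu, rfl⟩
    rw [mem_closedBall_zero_iff, hnorm]
    have := abs_le.1 (hR u hu)
    exact Real.exp_le_exp.2 (by nlinarith)
  have h0 : ∀ u ∈ closure (E '' W), u ≠ 0 := by
    have h1 : closure (E '' W) ⊆ {u | Real.exp (-(2 * Real.pi * R)) ≤ ‖u‖} := by
      refine closure_minimal ?_ (isClosed_le continuous_const continuous_norm)
      rintro _ ⟨u, hu, rfl⟩
      show _ ≤ ‖E u‖
      rw [hnorm]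
      have := abs_le.1 (hR u hu)
      exact Real.exp_le_exp.2 (by nlinarith)
    intro u hu e
    have h2 : Real.exp (-(2 * Real.pi * R)) ≤ ‖u‖ := h1 hu
    rw [e, norm_zero] at h2
    exact absurd h2 (not_le.2 (Real.exp_pos _))
  have hper : Function.Periodic (fun t => E (γ t)) 1 := by
    intro t
    simp only [hE, hp]
    rw [mul_add, Complex.exp_add, div_mul_cancel₀ _ hω, hc0, Complex.exp_two_pi_mul_I, mul_one]
  set c : AddCircle (1 : ℝ) → ℂ := hper.lift with hc
  have hce : ∀ t : ℝ, c t = E (γ t) := fun t => rfl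
  have hcc : Continuous c := continuous_coinduced_dom.2 (hEc.comp hγ)
  have hci : Function.Injective c := by
    intro s t
    obtain ⟨s, rfl⟩ := QuotientAddGroup.mk_surjective s
    obtain ⟨t, rfl⟩ := QuotientAddGroup.mk_surjective t
    intro h
    obtain ⟨n, hn⟩ := hEe _ _ h
    rw [← hpn] at hn
    rw [hi hn]
    have : ((n : ℝ) : AddCircle (1 : ℝ)) = 0 := by
      rw [AddCircle.coe_eq_zero_iff]
      exact ⟨n, by simp⟩
    show ((t + n : ℝ) : AddCircle (1 : ℝ)) = (t : ℝ)
    rw [AddCircle.coe_add, this, add_zero]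
  have hz0 : ∀ t, c t - E z ≠ 0 := by
    intro t e
    obtain ⟨t, rfl⟩ := QuotientAddGroup.mk_surjective t
    have h1 : γ t ∈ E ⁻¹' (E '' W) := ⟨z, hz, (sub_eq_zero.1 e).symm⟩
    rw [hpre] at h1
    exact hd t h1
  obtain ⟨M, n, hM, hMe, hMp⟩ := lift (φ := fun t => c t - E z) (by fun_prop) hz0
  obtain ⟨L, hL, hLe⟩ := extend hcc hci (M := fun t => M t + (-n : ℤ) * (c0 / ω * γ t))
    (by fun_prop) (by
      intro t
      simp only [hMp, hp]
      push_cast
      field_simp
      ring)
  have := eil hV hb (mem_image_of_mem E hz) (a := 1) (h := fun u => u ^ (-n)) (L := L)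
    (ContinuousOn.zpow₀ continuousOn_id _ fun u hu => Or.inl (h0 u hu))
    (fun u hu => zpow_ne_zero _ (h0 u hu)) hL (by
      intro u hu
      have hu0 := h0 u (frontier_subset_closure hu)
      have h1 : E (ω / c0 * Complex.log u) = u := by
        simp only [hE]
        rw [show c0 / ω * (ω / c0 * Complex.log u) = Complex.log u by field_simp,
          Complex.exp_log hu0]
      have h2 : ω / c0 * Complex.log u ∈ E ⁻¹' frontier (E '' W) := by
        rw [mem_preimage]
        rw [h1]
        exact hu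
      rw [hEo.preimage_frontier_eq_frontier_preimage hEc, hpre] at h2
      obtain ⟨t, ht⟩ := hf h2
      have h3 : u = c t := by rw [hce, ht, h1]
      rw [h3, hLe, Complex.exp_add, Complex.exp_int_mul, hMe, zpow_one]
      rfl)
  exact one_ne_zero this

end Vale.Agent.P097G
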