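import Vale.Agent.P097G.Area

/-!
# P097, Birkhoff graph theorem: the twist turns lifted angles clockwise
-/

namespace Vale.Agent.P097G

open Set Topology Filter Metric MeasureTheory Real

theorem sector0 {α β r s m : ℝ} (hr : 0 < r) (hs : 0 < s) (h : r * cos α = s * cos β)
    (hm : cos m = 0) (h1 : α < m) (h2 : m ≤ β) (h3 : β - α < π) : False := by
  have e1 : cos α = sin m * sin (m - α) := by
    conv_lhs => rw [show α = m - (m - α) by ring, cos_sub, hm]
    ring
  have e2 : cos β = -(sin m * sin (β - m)) := by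
    conv_lhs => rw [show β = m + (β - m) by ring, cos_add, hm]
    ring
  have h4 : 0 < sin (m - α) := sin_pos_of_pos_of_lt_pi (by linarith) (by linarith)
  have h5 : 0 ≤ sin (β - m) := sin_nonneg_of_nonneg_of_le_pi (by linarith) (by linarith)
  have h6 : sin m ≠ 0 := fun e => by
    have := sin_sq_add_cos_sq m
    rw [e, hm] at this
    norm_num at this
  have h7 : sin m * (r * sin (m - α) + s * sin (β - m)) = 0 := by
    rw [e1, e2] at h
    linear_combination h
  have h8 := (mul_eq_zero.1 h7).resolve_left h6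
  have := mul_pos hr h4
  have := mul_nonneg hs.le h5
  linarith

theorem sector {α β r s m : ℝ} (hr : 0 < r) (hs : 0 < s) (h : r * cos α = s * cos β)
    (h3 : |β - α| < π) (hm : cos m = 0) : (α < m ↔ β < m) ∧ (m < α ↔ m < β) := by
  rw [abs_lt] at h3
  have h' : r * cos (-α) = s * cos (-β) := by simpa using h
  have hm' : cos (-m) = 0 := by simpa using hm
  refine ⟨⟨fun h1 => ?_, fun h1 => ?_⟩, fun h1 => ?_, fun h1 => ?_⟩ <;> by_contra h2 <;>
    rw [not_lt] at h2
  · exact sector0 hr hs h hm h1 h2 h3.2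
  · exact sector0 hs hr h.symm hm h1 h2 (by linarith)
  · exact sector0 hr hs h' hm' (by linarith) (by linarith) (by linarith)
  · exact sector0 hs hr h'.symm hm' (by linarith) (by linarith) (by linarith)

theorem slit_of {p b : ℂ} (hre : p.re = b.re) (h : p.re = 0 → 0 < p.im * b.im) :
    b / p ∈ Complex.slitPlane := by
  have hp : p ≠ 0 := fun e => by simpa [e] using h (by simp [e])
  by_contra hn
  rw [Complex.mem_slitPlane_iff, not_or, not_lt, not_not] at hn
  have e : b = (b / p) * p := by field_simp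
  have e1 := congrArg Complex.re e
  have e2 := congrArg Complex.im e
  rw [Complex.mul_re, hn.2] at e1
  rw [Complex.mul_im, hn.2] at e2
  have h0 : p.re = 0 := by
    have : p.re * (1 - (b / p).re) = 0 := by linear_combination hre + e1
    exact (mul_eq_zero.1 this).resolve_right (by linarith [hn.1])
  have h1 := h h0
  rw [e2] at h1
  nlinarith [hn.1, sq_nonneg p.im]

variable {a : ℝ} {T : ℂ → ℂ} {μ : Measure ℂ} {γ : ℝ → ℂ}

theorem exists_phi (W : Twist a T μ) (H : Crv γ a) (hS : ∀ t, γ t ∈ St a)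
    (hT : ∀ t, T (γ t) ∈ range γ) :
    ∃ φ : ℝ → ℝ, Continuous φ ∧ (∀ t, γ (φ t) = T (γ t)) ∧ ∀ t, φ (t + 1) = φ t + 1 := by
  choose φ hφ using hT
  refine ⟨φ, H.emb.isInducing.continuous_iff.2 ?_, hφ, fun t => H.inj ?_⟩
  · have : γ ∘ φ = fun t => T (γ t) := funext hφ
    rw [this]
    exact W.cont.comp_continuous H.cont hS
  · rw [hφ, H.per, H.per, hφ, W.per _ (hS t)]

theorem th_T (W : Twist a T μ) (H : Crv γ a) (hS : ∀ t, γ t ∈ St a) {φ : ℝ → ℝ}
    (hc : Continuous φ) (hφ : ∀ t, γ (φ t) = T (γ t)) (hp : ∀ t, φ (t + 1) = φ t + 1)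
    {z : ℂ} (hz : z ∈ St a) (hzγ : z ∉ range γ) :
    T z ∉ range γ ∧ ∀ t m, cos m = 0 → (th γ z t - π / 2 < m ↔ th γ (T z) (φ t) < m) ∧
      (m < th γ z t - π / 2 ↔ m < th γ (T z) (φ t)) := by
  have htop := top_of_per hc one_pos hp
  have hsurj : Function.Surjective φ := hc.surjective htop.1 htop.2
  have hz' : T z ∉ range γ := by
    rintro ⟨s, hs⟩
    obtain ⟨t, rfl⟩ := hsurj s
    rw [hφ] at hs
    exact hzγ ⟨t, W.bij.injOn (hS t) hz hs⟩
  refine ⟨hz', ?_⟩
  have h0 : ∀ t, γ t - z ≠ 0 := fun t e => hzγ ⟨t, sub_eq_zero.1 e⟩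
  have h0' : ∀ t, γ (φ t) - T z ≠ 0 := fun t e => hz' ⟨_, sub_eq_zero.1 e⟩
  have h0i : ∀ t, -Complex.I * (γ t - z) ≠ 0 := fun t =>
    mul_ne_zero (neg_ne_zero.2 Complex.I_ne_zero) (h0 t)
  have hre : ∀ t, (γ t - z).im = (γ (φ t) - T z).re := fun t => by
    rw [hφ, Complex.sub_re, W.re _ (hS t), W.re _ hz, Complex.sub_im]
  have hsl : ∀ t, (γ (φ t) - T z) / (-Complex.I * (γ t - z)) ∈ Complex.slitPlane := by
    intro t
    refine slit_of (by rw [← hre]; simp) fun h => ?_
    have h1 : (γ t).im = z.im := by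
      simp at h
      linarith
    have h2 : (-Complex.I * (γ t - z)).im = z.re - (γ t).re := by simp
    rw [h2, hφ, Complex.sub_im]
    rcases lt_trichotomy z.re (γ t).re with h3 | h3 | h3
    · exact mul_pos_of_neg_of_neg (by linarith) (by linarith [W.anti z hz _ (hS t) h1.symm h3])
    · exact absurd ⟨t, Complex.ext h3.symm h1⟩ hzγ
    · exact mul_pos (by linarith) (by linarith [W.anti _ (hS t) z hz h1 h3])
  have harg : ∀ t, |((γ (φ t) - T z) / (-Complex.I * (γ t - z))).arg| < π := fun t =>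
    abs_lt.2 ⟨Complex.neg_pi_lt_arg _,
      lt_of_le_of_ne (Complex.arg_le_pi _) (Complex.slitPlane_arg_ne_pi (hsl t))⟩
  obtain ⟨h1, h2, h3⟩ := H.lg_spec hzγ
  obtain ⟨h1', h2', h3'⟩ := H.lg_spec hz'
  obtain ⟨s, hs, hs'⟩ := (h3.and (htop.1.eventually h3')).exists
  have hγ := H.cont
  have hpi := pi_pos
  have hcw : Continuous fun t => Complex.log ((γ (φ t) - T z) / (-Complex.I * (γ t - z))) :=
    Continuous.clog (Continuous.div (by fun_prop) (by fun_prop) h0i) hsl
  have him : ∀ t, (lg γ z t - π / 2 * Complex.I +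
      Complex.log ((γ (φ t) - T z) / (-Complex.I * (γ t - z)))).im =
      (lg γ z t).im - π / 2 + ((γ (φ t) - T z) / (-Complex.I * (γ t - z))).arg := fun t => by
    rw [Complex.add_im, Complex.log_im]
    simp
  have key := log_uniq (L := fun t => lg γ (T z) (φ t))
    (L' := fun t => lg γ z t - π / 2 * Complex.I +
      Complex.log ((γ (φ t) - T z) / (-Complex.I * (γ t - z)))) (s := s) (h1'.comp hc)
    (Continuous.add (by fun_prop) hcw) (fun t => by
      rw [h2', Complex.exp_add, Complex.exp_sub, h2, Complex.exp_pi_div_two_mul_I,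
        Complex.exp_log (div_ne_zero (h0' t) (h0i t)), Complex.div_I]
      have := h0 t
      field_simp) (by
      have := abs_lt.1 (harg s)
      rw [him, abs_lt]
      constructor <;> linarith [hs.1, hs.2, hs'.1, hs'.2])
  intro t m hm
  obtain ⟨r, hr, -, hr2⟩ := H.polar hzγ t
  obtain ⟨r', hr', hr1', -⟩ := H.polar hz' (φ t)
  refine sector hr hr' ?_ ?_ hm
  · rw [cos_sub_pi_div_two, ← hr2, ← hr1', hre]
  · have := congrArg Complex.im (key t)
    rw [him] at this
    have h4 := harg t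
    have h5 : th γ (T z) (φ t) - (th γ z t - π / 2) =
        ((γ (φ t) - T z) / (-Complex.I * (γ t - z))).arg := by
      simp only [th]
      linarith
    rwa [h5]

/-- `z` lies below the curve -/
def Up (γ : ℝ → ℂ) (z : ℂ) : Prop := ∀ᶠ t in atBot, π < th γ z t

/-- `z` lies above the curve -/
def Dn (γ : ℝ → ℂ) (z : ℂ) : Prop := ∀ᶠ t in atBot, th γ z t < -(π / 2)

theorem not_up_dn {z : ℂ} (h1 : Up γ z) (h2 : Dn γ z) : False := by
  obtain ⟨t, h3, h4⟩ := (Eventually.and h1 h2).exists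
  linarith [pi_pos]

theorem Crv.up_of (H : Crv γ a) {z : ℂ} (hz : z ∉ range γ) (h : ∀ᶠ t in atBot, 0 < th γ z t) :
    Up γ z := by
  filter_upwards [h, H.evBot z] with t h1 h2
  obtain ⟨r, hr, -, hr2⟩ := H.polar hz t
  by_contra h3
  have := mul_nonneg hr.le (sin_nonneg_of_nonneg_of_le_pi h1.le (not_lt.1 h3))
  linarith [h2.2]

theorem Crv.dn_of (H : Crv γ a) {z : ℂ} (hz : z ∉ range γ) (h : ∀ᶠ t in atBot, th γ z t < 0) :
    Dn γ z := by
  filter_upwards [h, H.evBot z] with t h1 h2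
  obtain ⟨r, hr, hr1, -⟩ := H.polar hz t
  by_contra h3
  have := mul_nonneg hr.le
    (cos_nonneg_of_neg_pi_div_two_le_of_le (not_lt.1 h3) (by linarith [pi_pos]))
  linarith [h2.1]

theorem Crv.up_or_dn (H : Crv γ a) {z : ℂ} (hz : z ∉ range γ) : Up γ z ∨ Dn γ z := by
  obtain ⟨s, hs⟩ := eventually_atBot.1 (H.evBot z)
  have hne : ∀ t ≤ s, th γ z t ≠ 0 := fun t ht e => by
    obtain ⟨r, hr, hr1, -⟩ := H.polar hz t
    rw [e, cos_zero] at hr1
    linarith [(hs t ht).1]
  have hc := (H.th_cont hz).continuousOn (s := Iic s)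
  rcases lt_or_gt_of_ne (hne s le_rfl) with h | h
  · refine Or.inr (H.dn_of hz (eventually_atBot.2 ⟨s, fun t ht => ?_⟩))
    by_contra h1
    obtain ⟨x, hx, e⟩ := isPreconnected_Iic.intermediate_value (mem_Iic.2 le_rfl) (mem_Iic.2 ht) hc
      ⟨h.le, not_lt.1 h1⟩
    exact hne x hx e
  · refine Or.inl (H.up_of hz (eventually_atBot.2 ⟨s, fun t ht => ?_⟩))
    by_contra h1
    obtain ⟨x, hx, e⟩ := isPreconnected_Iic.intermediate_value (mem_Iic.2 ht) (mem_Iic.2 le_rfl) hc
      ⟨not_lt.1 h1, h.le⟩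
    exact hne x hx e

theorem Crv.up_near (H : Crv γ a) {z : ℂ} (hz : z ∉ range γ) :
    ∀ᶠ z' in 𝓝 z, (Up γ z' ↔ Up γ z) := by
  filter_upwards [H.th_near hz (half_pos pi_pos)] with z' h
  constructor
  · intro h1
    refine H.up_of hz (Eventually.mono h1 fun t ht => ?_)
    linarith [abs_lt.1 (h.2 t), pi_pos]
  · intro h1
    refine H.up_of h.1 (Eventually.mono h1 fun t ht => ?_)
    linarith [abs_lt.1 (h.2 t), pi_pos]

theorem Crv.dn_near (H : Crv γ a) {z : ℂ} (hz : z ∉ range γ) :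
    ∀ᶠ z' in 𝓝 z, (Dn γ z' ↔ Dn γ z) := by
  filter_upwards [H.th_near hz (half_pos pi_pos)] with z' h
  constructor
  · intro h1
    refine H.dn_of hz (Eventually.mono h1 fun t ht => ?_)
    linarith [abs_lt.1 (h.2 t), pi_pos]
  · intro h1
    refine H.dn_of h.1 (Eventually.mono h1 fun t ht => ?_)
    linarith [abs_lt.1 (h.2 t), pi_pos]

theorem ev_shift {f g : ℝ → ℝ} (h : ∀ t, g (t + 1) = f t) (p : ℝ → Prop) :
    (∀ᶠ t in atBot, p (g t)) ↔ ∀ᶠ t in atBot, p (f t) := by
  constructor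
  · intro h1
    exact ((tendsto_atBot_add_const_right _ 1 tendsto_id).eventually h1).mono fun t ht => h t ▸ ht
  · intro h1
    refine ((tendsto_atBot_add_const_right _ (-1) tendsto_id).eventually h1).mono fun t ht => ?_
    have := h (t + -1)
    rw [neg_add_cancel_right] at this
    rw [this]
    exact ht

theorem Crv.up_per (H : Crv γ a) {z : ℂ} (hz : z ∉ range γ) :
    Up γ (z + (a + a * Complex.I)) ↔ Up γ z := ev_shift (H.th_per hz) fun x => π < x

theorem Crv.dn_per (H : Crv γ a) {z : ℂ} (hz : z ∉ range γ) :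
    Dn γ (z + (a + a * Complex.I)) ↔ Dn γ z := ev_shift (H.th_per hz) fun x => x < -(π / 2)

end Vale.Agent.P097G
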